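import Vale.Agent.P207.N4.Dim
import Vale.Agent.P207.N4.H566.ExpD
import Vale.Agent.P207.N4.H732.PolL
import Vale.Agent.P207.N3.H732.Liou

/-!
# P207, dimension 3, P2-L: polar coordinates at a point of the universal cover

`polX x`: the polar coordinates `(u, s) ↦ Exp x (s u)` of the universal cover `EV n`, for the
Lebesgue measure, as a structure `Polar`. `ae_model`: a set `G` of full Liouville measure contains,
for almost every point `q` of the universal cover and every frame `x` at `q`, almost every
direction `dirF x.f u`.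
-/

open scoped Manifold ContDiff ENNReal NNReal Topology
open Bundle MeasureTheory Set Filter Metric

noncomputable section

set_option maxSynthPendingDepth 3
set_option linter.unusedSectionVars false

namespace Vale.Agent.P207.N4.H732

open Vale.Agent.P207.N3 Vale.Agent.P207.N3.H732

variable [Dim]

open Vale.Agent.P255 (RMetric Npc)
open Vale.Agent.P207.Q (Fr)
open Vale.Agent.P207.Q.H892
open Vale.Agent.P207.N4.H465 Vale.Agent.P207.N3.H465
open Vale.Agent.P207.N4.H566 Vale.Agent.P207.N3.H566
open H348 (Polar)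

variable {n : ℕ} {M : Type} [TopologicalSpace M] [ChartedSpace (EV n) M]
  [IsManifold 𝓘(ℝ, EV n) ∞ M] {g : RMetric (EV n) M} [Nonempty (Fr g)] [NeZero n]
  [CompactSpace M] [T2Space M] (h : Npc (mt g)) (m : M)

/-- **polar coordinates at a point of the universal cover** -/
def polX (x : XM h m) : Polar (volume : Measure (EV n)) (sphere (0 : EV n) 1) :=
  polE volume (Exp ((sys g h).cov m) x) (Log h m x) (contDiff_Exp h m x)
    (continuous_Log_right h m x) (Log_Exp h m x) (Exp_Log h m x)

theorem polX_θ (x : XM h m) : (polX h m x).θ = (volume : Measure (EV n)).toSphere := rfl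

theorem polX_Ψ (x : XM h m) (u : sphere (0 : EV n) 1) (s : ℝ) :
    (polX h m x).Ψ u s = Exp ((sys g h).cov m) x (s • (u : EV n)) := rfl

theorem polX_j (x : XM h m) (u : sphere (0 : EV n) 1) (s : ℝ) :
    (polX h m x).j u s = ENNReal.ofReal (s ^ (n - 1) *
      |(fderiv ℝ (Exp ((sys g h).cov m) x) (s • (u : EV n))).det|) := by
  have h1 : Module.finrank ℝ (EV n) = n := finrank_euclideanSpace_fin
  change ENNReal.ofReal (s ^ (Module.finrank ℝ (EV n) - 1) * _) = _
  rw [h1]

theorem polX_R (x : XM h m) : (polX h m x).R = {x.q}ᶜ := by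
  change ({Exp ((sys g h).cov m) x 0}ᶜ : Set (EV n)) = _
  rw [Exp_zero]

theorem polX_ρ (x : XM h m) (y : EV n) : (polX h m x).ρ y = ‖Log h m x y‖ := rfl

/-- the direction from a point -/
theorem exists_dirX (x : XM h m) : ∃ dir : EV n → sphere (0 : EV n) 1, Measurable dir ∧
    ∀ (u : sphere (0 : EV n) 1) (s : ℝ), 0 < s → dir ((polX h m x).Ψ u s) = u := by
  obtain ⟨dir, h1, h2⟩ := exists_dir (Log h m x) (continuous_Log_right h m x)
  refine ⟨dir, h1, fun u s hs => ?_⟩
  have hu : ‖(u : EV n)‖ = 1 := mem_sphere_zero_iff_norm.1 u.2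
  have hu0 : (u : EV n) ≠ 0 := norm_ne_zero_iff.1 (by rw [hu]; exact one_ne_zero)
  have h3 : Log h m x ((polX h m x).Ψ u s) = s • (u : EV n) := by
    rw [polX_Ψ, Log_Exp]
  apply Subtype.ext
  rw [h2 _ (by rw [h3]; exact smul_ne_zero hs.ne' hu0), h3, norm_smul, hu, mul_one,
    Real.norm_eq_abs, abs_of_pos hs, smul_smul, inv_mul_cancel₀ hs.ne', one_smul]

/-- the direction from the foot point of `x` -/
def dirX (x : XM h m) : EV n → sphere (0 : EV n) 1 := (exists_dirX h m x).choose

theorem measurable_dirX (x : XM h m) : Measurable (dirX h m x) := (exists_dirX h m x).choose_spec.1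

theorem dirX_Ψ (x : XM h m) (u : sphere (0 : EV n) 1) {s : ℝ} (hs : 0 < s) :
    dirX h m x ((polX h m x).Ψ u s) = u := (exists_dirX h m x).choose_spec.2 u s hs

/-! ### the disintegration -/

variable [MeasurableSpace M] [BorelSpace M] {μ : Measure M} {mL : Measure (UT g)}

/-- **Sets of full Liouville measure, on the universal cover.** -/
theorem ae_model (hμ : IsRiemVol g μ) (hm : IsLiouville g μ mL) {G : Set (UT g)}
    (hG : ∀ᵐ v ∂mL, v ∈ G) :
    ∀ᵐ q : EV n, ∀ x : XM h m, x.q = q →
      ∀ᵐ u : sphere (0 : EV n) 1 ∂(volume : Measure (EV n)).toSphere, dirF x.f (u : EV n) ∈ G := by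
  have : Nonempty M := ⟨m⟩
  have hp := locDif_e h m
  have h1 := ae_pull hp.cont hp.smooth hp.inv hμ (ae_dir_sphere hμ hm hG)
  filter_upwards [h1] with q hq x hx
  refine hq x.f ?_
  rw [← hx]
  exact (PB.e_q x).symm

/-- the frame whose first vector is the direction `u` -/
theorem dirF_rot (x : XM h m) {A : OG n} {u : EV n} (hA : act A (EuclideanSpace.single 0 1) = u) :
    dirF x.f u = (XF.rot A x).f.ut 0 := by
  rw [← hA, dirF_act]
  rfl

end Vale.Agent.P207.N4.H732
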