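import Vale.Agent.P207.N4.Dim
import Vale.Agent.P207.N4.H732.PolX
import Vale.Agent.P207.N4.Geo.Over
import Vale.Agent.P207.BlkDA
import Vale.Agent.P207.Q.H129.JacFr

/-!
# P207, dimension 3, P2-L: the Riemannian volume of the universal cover

`volM g m`: the Riemannian volume of the universal cover `EV n` (pull back by `exp_m`).
`jac_chain`: the chain rule for `jac`. `polV x`: the polar coordinates at `x` for `volM`, with the
density `jX x (s u)`. `polV_bounds`: the two-sided estimate of the density by
`exp (∫ tr U)`. `mp_deck`: invariance under the deck group.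
-/

open scoped Manifold ContDiff ENNReal NNReal Topology Matrix
open Bundle MeasureTheory Set Filter Metric

noncomputable section

set_option maxSynthPendingDepth 3
set_option linter.unusedSectionVars false

namespace Vale.Agent.P207.N4.H732

open Vale.Agent.P207.N3 Vale.Agent.P207.N3.H732

variable [Dim]

open Vale.Agent.P255 (RMetric Npc expg)
open Vale.Agent.P207.Q (Fr IsHorFlow)
open Vale.Agent.P207.Q.H892
open Vale.Agent.P207.N4.H465 Vale.Agent.P207.N3.H465
open Vale.Agent.P207.N4.H566 Vale.Agent.P207.N3.H566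
open H348 (Polar)

/-! ### densities -/

/-- polar coordinates for the measure with density `J` -/
def _root_.Vale.Agent.P207.N4.H348.Polar.wd {Y Ω : Type} [MeasurableSpace Y] [MeasurableSpace Ω]
    {vol : Measure Y} (P : Polar vol Ω) {J : Y → ℝ≥0∞} (hJ : Measurable J) :
    Polar (vol.withDensity J) Ω where
  θ := P.θ
  finite := P.finite
  Ψ := P.Ψ
  j v s := P.j v s * J (P.Ψ v s)
  meas_Ψ := P.meas_Ψ
  meas_j := P.meas_j.mul (hJ.comp P.meas_Ψ)
  R := P.R
  meas_R := P.meas_R
  range := P.range
  ρ := P.ρ
  meas_ρ := P.meas_ρ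
  ρ_Ψ := P.ρ_Ψ
  lint F hF := by
    rw [restrict_withDensity P.meas_R, lintegral_withDensity_eq_lintegral_mul _ hJ hF,
      P.lint _ (hJ.mul hF)]
    refine lintegral_congr fun v => lintegral_congr fun s => ?_
    simp only [Pi.mul_apply]
    ring

variable {n : ℕ} {M : Type} [TopologicalSpace M] [ChartedSpace (EV n) M]
  [IsManifold 𝓘(ℝ, EV n) ∞ M] {g : RMetric (EV n) M} [CompactSpace M] [T2Space M]

/-! ### the chain rule -/

/-- **the chain rule for the Jacobian of the exponential map** -/
theorem jac_chain (g : RMetric (EV n) M) {m m' : M} {F L : EV n → EV n} {w : EV n}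
    (hF : DifferentiableAt ℝ F w) (hL : DifferentiableAt ℝ L w)
    (h : ∀ z, expg (mt g) m (F z) = expg (mt g) m' (L z)) :
    jac g m (F w) * |(fderiv ℝ F w).det| = jac g m' (L w) * |(fderiv ℝ L w).det| := by
  set a := expg (mt g) m (F w) with ha
  have hs : expg (mt g) m (F w) ∈ (chartAt (EV n) a).source := mem_chart_source _ _
  have hs' : expg (mt g) m' (L w) ∈ (chartAt (EV n) a).source := by rw [← h]; exact hs
  have hA := ((P255.contDiffAt_expg (mt g) m (F w) a hs).differentiableAt
    one_ne_zero).hasFDerivAt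
  have hB := ((P255.contDiffAt_expg (mt g) m' (L w) a hs').differentiableAt
    one_ne_zero).hasFDerivAt
  have h1 := HasFDerivAt.comp w hA hF.hasFDerivAt
  have h2 := HasFDerivAt.comp w hB hL.hasFDerivAt
  have h3 : ((fun z => chartAt (EV n) a (expg (mt g) m z)) ∘ F) =
      ((fun z => chartAt (EV n) a (expg (mt g) m' z)) ∘ L) := by
    funext z
    change chartAt (EV n) a (expg (mt g) m (F z)) = chartAt (EV n) a (expg (mt g) m' (L z))
    rw [h z]
  rw [h3] at h1
  have h4 := h1.unique h2
  have h5 := congrArg (fun A : EV n →L[ℝ] EV n => |A.det|) h4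
  have h6 : ∀ A B : EV n →L[ℝ] EV n, |(A.comp B).det| = |A.det| * |B.det| := fun A B => by
    have h7 : (A.comp B).det = A.det * B.det := LinearMap.det_comp _ _
    rw [h7, abs_mul]
  simp only [h6] at h5
  rw [jac_eq g m (F w) a hs, jac_eq g m' (L w) a hs', ← h w]
  rw [mul_right_comm, h5]
  ring

theorem fderiv_LfE (f : Fr g) (w : EV n) : (fderiv ℝ (fun z => Lf f z) w).det = (Lf f).det := by
  have h1 : fderiv ℝ (fun z => Lf f z) w = Lf f := (Lf f).hasFDerivAt.fderiv
  rw [h1]

theorem gramE_inner : gramE (innerSL ℝ : EV n →L[ℝ] EV n →L[ℝ] ℝ) = 1 := by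
  ext i j
  change (inner ℝ (EuclideanSpace.single i (1 : ℝ) : EV n) (EuclideanSpace.single j (1 : ℝ)) : ℝ) =
    (1 : Matrix (Fin n) (Fin n) ℝ) i j
  rw [EuclideanSpace.inner_single_left]
  simp [Matrix.one_apply]

/-- a frame has volume one -/
theorem abs_det_Lf (f : Fr g) : |(Lf f).det| * dens0 g f.pt = 1 := by
  have h1 : (innerB g f.pt).bilinearComp (Lf f) (Lf f) = (innerSL ℝ : EV n →L[ℝ] EV n →L[ℝ] ℝ) := by
    ext u v
    exact (inner_Lf f u v).trans (innerSL_apply_apply ℝ u v).symm
  have h2 := gramE_comp_det (innerB g f.pt) (Lf f)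
  rw [h1, gramE_inner, Matrix.det_one] at h2
  have h3 : dens0 g f.pt = Real.sqrt (gramE (innerB g f.pt)).det := by
    rw [innerB_eq_coefL]
    rfl
  rw [h3, ← Real.sqrt_sq_eq_abs, ← Real.sqrt_mul (sq_nonneg _), ← h2, Real.sqrt_one]

theorem jac_nonneg (g : RMetric (EV n) M) (m : M) (v : EV n) : 0 ≤ jac g m v :=
  mul_nonneg (abs_nonneg _) (Real.sqrt_nonneg _)

theorem continuous_jac (g : RMetric (EV n) M) (m : M) : Continuous (jac g m) := by
  rw [continuous_iff_continuousAt]
  intro v
  set a := expg (mt g) m v with ha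
  have hs : expg (mt g) m v ∈ (chartAt (EV n) a).source := mem_chart_source _ _
  have hc := P255.continuous_expg (mt g) m
  have hev : ∀ᶠ w in 𝓝 v, expg (mt g) m w ∈ (chartAt (EV n) a).source :=
    hc.continuousAt.eventually ((chartAt (EV n) a).open_source.mem_nhds hs)
  have h1 : ContinuousAt (fun w => |(fderiv ℝ (fun w => chartAt (EV n) a (expg (mt g) m w))
      w).det|) v := by
    have h2 := (P255.contDiffAt_expg (mt g) m v a hs).continuousAt_fderiv one_ne_zero
    exact (ContinuousLinearMap.continuous_det.continuousAt.comp h2).abs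
  have h3 : ContinuousAt (fun w => dens g a (chartAt (EV n) a (expg (mt g) m w))) v := by
    have h4 : ContinuousAt (dens g a) (chartAt (EV n) a (expg (mt g) m v)) :=
      (continuousOn_dens g a).continuousAt
        ((chartAt (EV n) a).open_target.mem_nhds ((chartAt (EV n) a).map_source hs))
    have h5 : ContinuousAt (fun w => chartAt (EV n) a (expg (mt g) m w)) v :=
      ((chartAt (EV n) a).continuousAt hs).comp hc.continuousAt
    exact ContinuousAt.comp (g := dens g a) h4 h5
  refine (h1.mul h3).congr ?_
  filter_upwards [hev] with w hw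
  exact (jac_eq g m w a hw).symm

/-- the Riemannian volume of the universal cover -/
def volM (g : RMetric (EV n) M) (m : M) : Measure (EV n) :=
  (volume : Measure (EV n)).withDensity fun y => ENNReal.ofReal (jac g m y)

theorem measurable_jac (g : RMetric (EV n) M) (m : M) :
    Measurable fun y => ENNReal.ofReal (jac g m y) :=
  (continuous_jac g m).measurable.ennreal_ofReal

theorem volM_ac (g : RMetric (EV n) M) (m : M) : volM g m ≪ volume :=
  withDensity_absolutelyContinuous _ _

theorem volM_fin (g : RMetric (EV n) M) (m : M) : IsFiniteMeasureOnCompacts (volM g m) := by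
  refine ⟨fun K hK => ?_⟩
  obtain ⟨C, hC⟩ := hK.exists_bound_of_continuousOn (continuous_jac g m).continuousOn
  have h1 : volM g m K = ∫⁻ y in K, ENNReal.ofReal (jac g m y) :=
    withDensity_apply _ hK.measurableSet
  rw [h1]
  calc ∫⁻ y in K, ENNReal.ofReal (jac g m y) ≤ ∫⁻ _ in K, ENNReal.ofReal C := by
        refine setLIntegral_mono' hK.measurableSet fun y hy => ?_
        exact ENNReal.ofReal_le_ofReal ((le_abs_self _).trans (hC y hy))
    _ < ⊤ := by
        rw [setLIntegral_const]
        exact ENNReal.mul_lt_top ENNReal.ofReal_lt_top hK.measure_lt_top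

/-! ### the model -/

section Model

variable [Nonempty (Fr g)] [NeZero n] (h : Npc (mt g)) (m : M)

theorem jac_Exp (x : XM h m) (w : EV n) :
    jac g m (Exp ((sys g h).cov m) x w) *
      |(fderiv ℝ (Exp ((sys g h).cov m) x) w).det| =
        |(Lf x.f).det| * jac g x.f.pt (Lf x.f w) := by
  have h1 := jac_chain g (m := m) (m' := x.f.pt) (F := Exp ((sys g h).cov m) x)
    (L := fun z => Lf x.f z) (w := w) ((contDiff_Exp h m x).differentiable (by simp) w)
    (Lf x.f).differentiableAt (fun z => by
      have h2 := e_Exp h m x z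
      rw [LfE_apply] at h2
      exact h2)
  rw [h1, fderiv_LfE, mul_comm]

include h in
/-- positivity -/
theorem jac_pos (w : EV n) : 0 < jac g m w := by
  have hs : expg (mt g) m w ∈ (chartAt (EV n) (expg (mt g) m w)).source := mem_chart_source _ _
  obtain ⟨L, hL⟩ := (locDif_expg h m).inv _ w hs
  have h1 : (fderiv ℝ (fun v => chartAt (EV n) (expg (mt g) m w) (expg (mt g) m v)) w) =
      (L : EV n →L[ℝ] EV n) := hL.fderiv
  unfold jac
  rw [h1]
  refine mul_pos (abs_pos.2 ?_) (dens_pos g _ ((chartAt (EV n) _).map_source hs))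
  exact det_ne_zero_of_injective L.injective

include h in
theorem ac_volM : (volume : Measure (EV n)) ≪ volM g m := by
  refine withDensity_absolutelyContinuous' (measurable_jac g m).aemeasurable ?_
  refine Eventually.of_forall fun y => ?_
  exact (ENNReal.ofReal_pos.2 (jac_pos h m y)).ne'

/-- **invariance under the deck group** -/
theorem mp_deck (γ : Deck ((sys g h).e m)) :
    MeasurePreserving (fun q : EV n => γ • q) (volM g m) (volM g m) := by
  have hc : Continuous fun q : EV n => γ • q := Deck.continuous_smul γ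
  have hd := contDiff_deck (locDif_e h m) γ
  refine ⟨hc.measurable, ?_⟩
  ext s hs
  rw [Measure.map_apply hc.measurable hs]
  unfold volM
  rw [withDensity_apply _ hs, withDensity_apply _ (hc.measurable hs)]
  have hinj : InjOn (fun q : EV n => γ • q) ((fun q : EV n => γ • q) ⁻¹' s) :=
    (MulAction.injective γ).injOn
  have h1 := lintegral_image_eq_lintegral_abs_det_fderiv_mul volume
    (f' := fun w => fderiv ℝ (fun q : EV n => γ • q) w) (hc.measurable hs)
    (fun w _ => (hd.differentiable (by simp) w).hasFDerivAt.hasFDerivWithinAt) hinj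
    (fun y => ENNReal.ofReal (jac g m y))
  rw [image_preimage_eq s (MulAction.surjective γ)] at h1
  rw [h1]
  refine lintegral_congr fun w => ?_
  have h2 := jac_chain g (m := m) (m' := m) (F := fun q : EV n => γ • q) (L := fun z => z) (w := w)
    (hd.differentiable (by simp) w) differentiableAt_id (fun z => γ.2 z)
  have h3 : (fderiv ℝ (fun z : EV n => z) w).det = 1 := by
    rw [fderiv_fun_id]
    exact LinearMap.det_id
  rw [h3, abs_one, mul_one] at h2
  rw [← ENNReal.ofReal_mul (abs_nonneg _), ← h2, mul_comm]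

/-- **polar coordinates for the Riemannian volume** -/
def polV (x : XM h m) : Polar (volM g m) (sphere (0 : EV n) 1) :=
  (polX h m x).wd (measurable_jac g m)

theorem polV_j (x : XM h m) (u : sphere (0 : EV n) 1) {s : ℝ} (hs : 0 ≤ s) :
    (polV h m x).j u s = ENNReal.ofReal (|(Lf x.f).det| *
      (s ^ (n - 1) * jac g x.f.pt (s • Lf x.f (u : EV n)))) := by
  change (polX h m x).j u s * ENNReal.ofReal (jac g m ((polX h m x).Ψ u s)) = _
  rw [polX_j, polX_Ψ, ← ENNReal.ofReal_mul (mul_nonneg (pow_nonneg hs _) (abs_nonneg _))]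
  congr 1
  have h1 := jac_Exp h m x (s • (u : EV n))
  rw [map_smul] at h1
  calc _ = s ^ (n - 1) * (jac g m (Exp ((sys g h).cov m) x (s • (u : EV n))) *
        |(fderiv ℝ (Exp ((sys g h).cov m) x) (s • (u : EV n))).det|) := by ring
    _ = _ := by rw [h1]; ring

end Model

end Vale.Agent.P207.N4.H732
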